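import Mathlib

/-! Fair (balanced) allocations: a compactness lemma.  helper889 -/

namespace Vale.Agent.P038.H889

open Finset

/-- Balanced fractional allocation of the items `Y` to the agents `G`. -/
theorem exists_fair {V : Type*} [Fintype V] (G Y : Finset V) (adj : V → V → Prop)
    (hY : ∀ y ∈ Y, ∃ x ∈ G, adj x y) :
    ∃ q : V → V → ℝ, (∀ y x, 0 ≤ q y x) ∧
      (∀ y x, q y x ≠ 0 → y ∈ Y ∧ x ∈ G ∧ adj x y) ∧
      (∀ y ∈ Y, ∑ x, q y x = 1) ∧
      (∀ y x x', 0 < q y x → x' ∈ G → adj x' y → ∑ y', q y' x ≤ ∑ y', q y' x') := by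
  classical
  set K : Set (V → V → ℝ) := {q | (∀ y x, 0 ≤ q y x) ∧
      (∀ y x, ¬ (y ∈ Y ∧ x ∈ G ∧ adj x y) → q y x = 0) ∧ (∀ y ∈ Y, ∑ x, q y x = 1)} with hK
  have hbox : K ⊆ Set.pi Set.univ (fun _ : V => Set.pi Set.univ (fun _ : V => Set.Icc (0:ℝ) 1)) := by
    intro q hq y _ x _
    refine ⟨hq.1 y x, ?_⟩
    by_cases hy : y ∈ Y
    · rw [← hq.2.2 y hy]
      exact Finset.single_le_sum (f := fun x => q y x) (fun i _ => hq.1 y i) (Finset.mem_univ x)
    · rw [hq.2.1 y x (fun h => hy h.1)]; norm_num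
  have hclosed : IsClosed K := by
    have e : K = (⋂ y, ⋂ x, {q : V → V → ℝ | 0 ≤ q y x}) ∩
        ((⋂ y, ⋂ x, ⋂ (_ : ¬ (y ∈ Y ∧ x ∈ G ∧ adj x y)), {q : V → V → ℝ | q y x = 0}) ∩
        (⋂ y, ⋂ (_ : y ∈ Y), {q : V → V → ℝ | ∑ x, q y x = 1})) := by
      ext q
      simp only [hK, Set.mem_setOf_eq, Set.mem_inter_iff, Set.mem_iInter]
    rw [e]
    refine IsClosed.inter ?_ (IsClosed.inter ?_ ?_)
    · refine isClosed_iInter fun y => isClosed_iInter fun x => ?_
      exact isClosed_le continuous_const (by fun_prop)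
    · refine isClosed_iInter fun y => isClosed_iInter fun x => isClosed_iInter fun _ => ?_
      exact isClosed_eq (by fun_prop) continuous_const
    · refine isClosed_iInter fun y => isClosed_iInter fun _ => ?_
      exact isClosed_eq (by fun_prop) continuous_const
  have hcomp : IsCompact K := by
    refine IsCompact.of_isClosed_subset ?_ hclosed hbox
    exact isCompact_univ_pi fun _ => isCompact_univ_pi fun _ => isCompact_Icc
  have hne : K.Nonempty := by
    choose! g hg using hY
    refine ⟨fun y x => if y ∈ Y ∧ x = g y then 1 else 0, ?_, ?_, ?_⟩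
    · intro y x
      dsimp only
      split_ifs <;> norm_num
    · intro y x h
      dsimp only
      rw [if_neg]
      rintro ⟨h1, h2⟩
      exact h ⟨h1, h2 ▸ (hg y h1).1, h2 ▸ (hg y h1).2⟩
    · intro y hy
      simp [hy]
  obtain ⟨q, hq, hmin⟩ := hcomp.exists_isMinOn hne
    (f := fun q : V → V → ℝ => ∑ x, (∑ y, q y x) ^ 2) (by fun_prop)
  refine ⟨q, hq.1, ?_, hq.2.2, ?_⟩
  · intro y x h
    by_contra hc
    exact h (hq.2.1 y x hc)
  · intro y x x' hpos hx' hadj
    by_contra hlt
    push_neg at hlt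
    set Lx := ∑ y', q y' x with hLx
    set Lx' := ∑ y', q y' x' with hLx'
    have hxx' : x ≠ x' := by
      rintro rfl
      exact lt_irrefl _ hlt
    set ε := min (q y x) ((Lx - Lx') / 2) with hε
    have hε0 : 0 < ε := lt_min hpos (by linarith)
    have hε1 : ε ≤ q y x := min_le_left _ _
    have hε2 : ε ≤ (Lx - Lx') / 2 := min_le_right _ _
    have hP : y ∈ Y ∧ x ∈ G ∧ adj x y := by
      by_contra hc
      rw [hq.2.1 y x hc] at hpos
      exact lt_irrefl _ hpos
    set δ : V → ℝ := fun t => (if t = x' then ε else 0) - (if t = x then ε else 0) with hδ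
    set q' : V → V → ℝ := fun s t => q s t + (if s = y then δ t else 0) with hq'
    have hδsum : ∑ t, δ t = 0 := by
      simp [hδ, Finset.sum_sub_distrib]
    have hK' : q' ∈ K := by
      refine ⟨?_, ?_, ?_⟩
      · intro s t
        simp only [hq']
        by_cases hs : s = y
        · subst hs
          simp only [if_true, hδ]
          by_cases h1 : t = x
          · subst h1
            rw [if_neg hxx', if_pos rfl]
            linarith
          · rw [if_neg h1]
            split_ifs
            · have := hq.1 s t; linarith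
            · have := hq.1 s t; linarith
        · rw [if_neg hs]
          have := hq.1 s t; linarith
      · intro s t h
        simp only [hq']
        rw [hq.2.1 s t h, zero_add]
        by_cases hs : s = y
        · subst hs
          rw [if_pos rfl]
          simp only [hδ]
          have h1 : t ≠ x := by
            rintro rfl
            exact h hP
          have h2 : t ≠ x' := by
            rintro rfl
            exact h ⟨hP.1, hx', hadj⟩
          rw [if_neg h1, if_neg h2]; ring
        · rw [if_neg hs]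
      · intro s hs
        simp only [hq', Finset.sum_add_distrib]
        rw [hq.2.2 s hs]
        by_cases h : s = y
        · simp [h, hδsum]
        · simp [h]
    have hL : ∀ t, ∑ s, q' s t = (∑ s, q s t) + δ t := by
      intro t
      simp only [hq', Finset.sum_add_distrib]
      simp
    have hmin' := hmin hK'
    simp only [Set.mem_setOf_eq] at hmin'
    have e1 : ∑ t, (∑ s, q' s t) ^ 2 = ∑ t, (∑ s, q s t) ^ 2 + (2 * ε * (Lx' - Lx) + 2 * ε ^ 2) := by
      have : ∀ t, (∑ s, q' s t) ^ 2 = (∑ s, q s t) ^ 2 + (2 * (∑ s, q s t) * δ t + δ t ^ 2) := by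
        intro t; rw [hL]; ring
      rw [Finset.sum_congr rfl fun t _ => this t, Finset.sum_add_distrib]
      congr 1
      rw [Finset.sum_add_distrib]
      have e2 : ∑ t, 2 * (∑ s, q s t) * δ t = 2 * ε * (Lx' - Lx) := by
        simp only [hδ, mul_sub, Finset.sum_sub_distrib, mul_ite, mul_zero]
        simp only [Finset.sum_ite_eq', Finset.mem_univ, if_true]
        rw [← hLx, ← hLx']; ring
      have e3 : ∑ t, δ t ^ 2 = 2 * ε ^ 2 := by
        have : ∀ t, δ t ^ 2 = (if t = x' then ε ^ 2 else 0) + (if t = x then ε ^ 2 else 0) := by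
          intro t
          simp only [hδ]
          by_cases h1 : t = x'
          · subst h1
            rw [if_pos rfl, if_neg (Ne.symm hxx'), if_pos rfl, if_neg (Ne.symm hxx')]; ring
          · by_cases h2 : t = x
            · subst h2
              rw [if_neg h1, if_pos rfl, if_neg h1, if_pos rfl]; ring
            · rw [if_neg h1, if_neg h2, if_neg h1, if_neg h2]; ring
        rw [Finset.sum_congr rfl fun t _ => this t, Finset.sum_add_distrib]
        simp only [Finset.sum_ite_eq', Finset.mem_univ, if_true]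
        ring
      rw [e2, e3]
    have h3 : 2 * ε * (Lx' - Lx) + 2 * ε ^ 2 < 0 := by
      nlinarith
    have hm : (∑ t, (∑ s, q s t) ^ 2) ≤ ∑ t, (∑ s, q' s t) ^ 2 := hmin'
    rw [e1] at hm
    linarith

/-- Under Hall's condition every agent of a fair allocation gets at least one. -/
theorem fair_ge_one {V : Type*} [Fintype V] (G Y : Finset V) (adj : V → V → Prop)
    (q : V → V → ℝ) (h0 : ∀ y x, 0 ≤ q y x)
    (h1 : ∀ y x, q y x ≠ 0 → y ∈ Y ∧ x ∈ G ∧ adj x y)
    (h2 : ∀ y ∈ Y, ∑ x, q y x = 1)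
    (h3 : ∀ y x x', 0 < q y x → x' ∈ G → adj x' y → ∑ y', q y' x ≤ ∑ y', q y' x')
    (hall : ∀ S : Finset V, S ⊆ G → ∃ T : Finset V, S.card ≤ T.card ∧
      ∀ y ∈ T, y ∈ Y ∧ ∃ x ∈ S, adj x y) :
    ∀ x ∈ G, 1 ≤ ∑ y, q y x := by
  classical
  by_contra hc
  push_neg at hc
  set L : V → ℝ := fun x => ∑ y, q y x with hL
  set S : Finset V := G.filter fun x => L x < 1 with hS
  obtain ⟨x0, hx0, hx01⟩ := hc
  have hSne : S.Nonempty := ⟨x0, by simp [hS, hx0]; exact hx01⟩
  obtain ⟨T, hT1, hT2⟩ := hall S (Finset.filter_subset _ _)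
  -- every item of T is given entirely to S
  have hT3 : ∀ y ∈ T, ∑ x ∈ S, q y x = 1 := by
    intro y hy
    obtain ⟨hyY, x, hxS, hxy⟩ := hT2 y hy
    rw [← h2 y hyY]
    refine Finset.sum_subset (Finset.subset_univ _) ?_
    intro x' _ hx'
    by_contra hne
    have hpos : 0 < q y x' := lt_of_le_of_ne (h0 y x') (Ne.symm hne)
    have hx'G := (h1 y x' hne).2.1
    have hxm := Finset.mem_filter.mp hxS
    have := h3 y x' x hpos hxm.1 hxy
    exact hx' (Finset.mem_filter.mpr ⟨hx'G, lt_of_le_of_lt this hxm.2⟩)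
  have h4 : (T.card : ℝ) ≤ ∑ x ∈ S, L x := by
    have : (T.card : ℝ) = ∑ y ∈ T, ∑ x ∈ S, q y x := by
      rw [Finset.sum_congr rfl hT3]; simp
    rw [this, Finset.sum_comm]
    refine Finset.sum_le_sum fun x _ => ?_
    exact Finset.sum_le_univ_sum_of_nonneg (fun y => h0 y x)
  have h5 : ∑ x ∈ S, L x < (S.card : ℝ) := by
    have : (S.card : ℝ) = ∑ _x ∈ S, (1:ℝ) := by simp
    rw [this]
    exact Finset.sum_lt_sum_of_nonempty hSne fun x hx => (Finset.mem_filter.mp hx).2
  have h6 : (S.card : ℝ) ≤ (T.card : ℝ) := by exact_mod_cast hT1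
  linarith

end Vale.Agent.P038.H889
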