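import Vale.Agent.P038.H889.Fair

/-! The gap inequality (CHEB) for an arbitrary relation `R`, from the row and column Hall
conditions.  helper889 -/

namespace Vale.Agent.P038.H889

open Finset

variable {V : Type*} [Fintype V]

open Classical in
/-- second coordinate moves forward -/
noncomputable def Ed (R : V → V → Prop) (S : Finset (V × V)) : Finset (V × V) :=
  univ.filter fun p => ∃ x, (p.1, x) ∈ S ∧ R x p.2

open Classical in
/-- erosion in the first coordinate -/
noncomputable def Js (R : V → V → Prop) (S : Finset (V × V)) : Finset (V × V) :=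
  univ.filter fun p => ∀ s, R s p.1 → (s, p.2) ∈ S

theorem mem_Ed {R : V → V → Prop} {S : Finset (V × V)} {a y : V} :
    (a, y) ∈ Ed R S ↔ ∃ x, (a, x) ∈ S ∧ R x y := by
  simp [Ed]

theorem mem_Js {R : V → V → Prop} {S : Finset (V × V)} {z x : V} :
    (z, x) ∈ Js R S ↔ ∀ s, R s z → (s, x) ∈ S := by
  simp [Js]

open Classical in
/-- row of a relation -/
noncomputable def row (S : Finset (V × V)) (a : V) : Finset V := univ.filter fun x => (a, x) ∈ S

open Classical in
/-- column of a relation -/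
noncomputable def col (S : Finset (V × V)) (x : V) : Finset V := univ.filter fun a => (a, x) ∈ S

theorem mem_row {S : Finset (V × V)} {a x : V} : x ∈ row S a ↔ (a, x) ∈ S := by simp [row]
theorem mem_col {S : Finset (V × V)} {a x : V} : a ∈ col S x ↔ (a, x) ∈ S := by simp [col]

theorem card_eq_sum_row (S : Finset (V × V)) : S.card = ∑ a, (row S a).card := by
  classical
  rw [Finset.card_eq_sum_card_fiberwise (f := Prod.fst) (t := univ) (fun _ _ => by simp)]
  refine Finset.sum_congr rfl fun a _ => ?_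
  refine Finset.card_bij (fun p _ => p.2) ?_ ?_ ?_
  · rintro ⟨p, q⟩ h
    simp only [Finset.mem_filter] at h
    obtain ⟨h1, rfl⟩ := h
    exact mem_row.mpr h1
  · rintro ⟨p, q⟩ h ⟨p', q'⟩ h' e
    simp only [Finset.mem_filter] at h h'
    obtain ⟨h1, rfl⟩ := h
    obtain ⟨h1', h2'⟩ := h'
    simp only at e h2'
    rw [h2', e]
  · intro x hx
    exact ⟨(a, x), by simp [mem_row.mp hx], rfl⟩

theorem card_eq_sum_col (S : Finset (V × V)) : S.card = ∑ x, (col S x).card := by
  classical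
  rw [Finset.card_eq_sum_card_fiberwise (f := Prod.snd) (t := univ) (fun _ _ => by simp)]
  refine Finset.sum_congr rfl fun a _ => ?_
  refine Finset.card_bij (fun p _ => p.1) ?_ ?_ ?_
  · rintro ⟨p, q⟩ h
    simp only [Finset.mem_filter] at h
    obtain ⟨h1, rfl⟩ := h
    exact mem_col.mpr h1
  · rintro ⟨p, q⟩ h ⟨p', q'⟩ h' e
    simp only [Finset.mem_filter] at h h'
    obtain ⟨h1, rfl⟩ := h
    obtain ⟨h1', h2'⟩ := h'
    simp only at e h2'
    rw [h2', e]
  · intro x hx
    exact ⟨(x, a), by simp [mem_col.mp hx], rfl⟩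

theorem Ed_mono {R : V → V → Prop} {S T : Finset (V × V)} (h : S ⊆ T) : Ed R S ⊆ Ed R T := by
  rintro ⟨a, y⟩ hp
  obtain ⟨x, h1, h2⟩ := mem_Ed.mp hp
  exact mem_Ed.mpr ⟨x, h h1, h2⟩

theorem Js_mono {R : V → V → Prop} {S T : Finset (V × V)} (h : S ⊆ T) : Js R S ⊆ Js R T := by
  rintro ⟨a, y⟩ hp
  exact mem_Js.mpr fun s hs => h (mem_Js.mp hp s hs)

open Classical in
theorem star (R : V → V → Prop) (B U : Finset (V × V)) (hBU : B ⊆ U)
    (hR : ∀ a, ∀ S : Finset V, (∀ x ∈ S, (a, x) ∈ U ∧ (a, x) ∉ B) →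
      S.card ≤ (univ.filter fun y => (∃ x ∈ S, R x y) ∧ (a, y) ∉ Ed R B).card)
    (hC : ∀ x, ∀ S : Finset V, (∀ a ∈ S, (a, x) ∈ U ∧ (a, x) ∉ B) →
      S.card ≤ (univ.filter fun z => (∃ a ∈ S, R a z) ∧ (z, x) ∈ Js R U).card) :
    (Ed R U).card + (Js R U).card + B.card + (Ed R (Js R B)).card ≤
      U.card + (Ed R (Js R U)).card + (Ed R B).card + (Js R B).card := by
  -- gap
  set G : Finset (V × V) := U \ B with hG
  have memG : ∀ a x, (a, x) ∈ G ↔ (a, x) ∈ U ∧ (a, x) ∉ B := fun a x => by simp [hG]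
  set G2 : Finset (V × V) := Ed R U \ Ed R B with hG2
  set G1 : Finset (V × V) := Js R U \ Js R B with hG1
  set G3 : Finset (V × V) := Ed R (Js R U) \ Ed R (Js R B) with hG3
  -- fair allocations for every row
  have hfair : ∀ a, ∃ q : V → V → ℝ, (∀ y x, 0 ≤ q y x) ∧
      (∀ y x, q y x ≠ 0 → y ∈ row G2 a ∧ x ∈ row G a ∧ R x y) ∧
      (∀ y ∈ row G2 a, ∑ x, q y x = 1) ∧
      (∀ y x x', 0 < q y x → x' ∈ row G a → R x' y → ∑ y', q y' x ≤ ∑ y', q y' x') := by
    intro a
    refine exists_fair (row G a) (row G2 a) R ?_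
    intro y hy
    rw [mem_row, hG2, Finset.mem_sdiff] at hy
    obtain ⟨x, h1, h2⟩ := mem_Ed.mp hy.1
    refine ⟨x, ?_, h2⟩
    rw [mem_row, memG]
    exact ⟨h1, fun h3 => hy.2 (mem_Ed.mpr ⟨x, h3, h2⟩)⟩
  choose q q0 q1 q2 q3 using hfair
  set L : V → V → ℝ := fun a x => ∑ y, q a y x with hL
  have hL1 : ∀ a x, (a, x) ∈ G → 1 ≤ L a x := by
    intro a x hax
    refine fair_ge_one (row G a) (row G2 a) R (q a) (q0 a) (q1 a) (q2 a) (q3 a) ?_ x
      (mem_row.mpr hax)
    intro S hS
    refine ⟨_, hR a S fun x hx => (memG a x).mp (mem_row.mp (hS hx)), ?_⟩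
    intro y hy
    simp only [Finset.mem_filter, Finset.mem_univ, true_and] at hy
    obtain ⟨⟨x, hx, hxy⟩, hy2⟩ := hy
    refine ⟨?_, x, hx, hxy⟩
    rw [mem_row, hG2, Finset.mem_sdiff]
    exact ⟨mem_Ed.mpr ⟨x, ((memG a x).mp (mem_row.mp (hS hx))).1, hxy⟩, hy2⟩
  have hLsum : ∀ a, ∑ x ∈ row G a, L a x = ((row G2 a).card : ℝ) := by
    intro a
    have e1 : ∑ x ∈ row G a, L a x = ∑ x, L a x := by
      refine Finset.sum_subset (Finset.subset_univ _) fun x _ hx => ?_
      refine Finset.sum_eq_zero fun y _ => ?_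
      by_contra hne
      exact hx (q1 a y x hne).2.1
    rw [e1, Finset.sum_comm]
    have e2 : ∑ y, ∑ x, q a y x = ∑ y ∈ row G2 a, ∑ x, q a y x := by
      symm
      refine Finset.sum_subset (Finset.subset_univ _) fun y _ hy => ?_
      refine Finset.sum_eq_zero fun x _ => ?_
      by_contra hne
      exact hy (q1 a y x hne).1
    rw [e2, Finset.sum_congr rfl (q2 a)]
    simp
  -- an injective numbering
  let e : V ≃ Fin (Fintype.card V) := Fintype.equivFin V
  -- choice of the richest parent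
  have hpi : ∀ z x, (z, x) ∈ G1 → ∃ a, R a z ∧ (a, x) ∈ G ∧
      (∀ a', R a' z → (a', x) ∈ G → L a' x ≤ L a x) ∧
      (∀ a', R a' z → (a', x) ∈ G → L a' x = L a x → e a ≤ e a') := by
    intro z x hzx
    rw [hG1, Finset.mem_sdiff] at hzx
    set Am : Finset V := univ.filter fun a => R a z ∧ (a, x) ∈ G with hAm
    have hAne : Am.Nonempty := by
      have h2 : ¬ ∀ s, R s z → (s, x) ∈ B := fun h => hzx.2 (mem_Js.mpr h)
      push_neg at h2
      obtain ⟨s, hs, hsB⟩ := h2
      exact ⟨s, by simp only [hAm, Finset.mem_filter, Finset.mem_univ, true_and]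
                   exact ⟨hs, (memG s x).mpr ⟨mem_Js.mp hzx.1 s hs, hsB⟩⟩⟩
    obtain ⟨a0, ha0, hmax⟩ := Finset.exists_max_image Am (fun a => L a x) hAne
    set Bm : Finset V := Am.filter fun a => L a x = L a0 x with hBm
    have hBne : Bm.Nonempty := ⟨a0, by simp [hBm, ha0]⟩
    obtain ⟨a1, ha1, hmin⟩ := Finset.exists_min_image Bm (fun a => e a) hBne
    have ha1' := Finset.mem_filter.mp ha1
    have ha1'' := Finset.mem_filter.mp ha1'.1
    refine ⟨a1, ha1''.2.1, ha1''.2.2, ?_, ?_⟩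
    · intro a' h1 h2
      rw [ha1'.2]
      exact hmax a' (by simp only [hAm, Finset.mem_filter, Finset.mem_univ, true_and]; exact ⟨h1, h2⟩)
    · intro a' h1 h2 h3
      refine hmin a' ?_
      rw [hBm, Finset.mem_filter]
      refine ⟨by simp only [hAm, Finset.mem_filter, Finset.mem_univ, true_and]; exact ⟨h1, h2⟩, ?_⟩
      rw [h3, ha1'.2]
  choose! pi p1 p2 p3 p4 using hpi
  -- row claim
  have hrow : ∀ z, ∑ x ∈ row G1 z, L (pi z x) x ≤ ((row G3 z).card : ℝ) := by
    intro z
    have e1 : ∑ x ∈ row G1 z, L (pi z x) x = ∑ y, ∑ x ∈ row G1 z, q (pi z x) y x := by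
      rw [Finset.sum_comm]
    rw [e1]
    have e2 : ∑ y, ∑ x ∈ row G1 z, q (pi z x) y x = ∑ y ∈ row G3 z, ∑ x ∈ row G1 z, q (pi z x) y x := by
      symm
      refine Finset.sum_subset (Finset.subset_univ _) fun y _ hy => ?_
      refine Finset.sum_eq_zero fun x hx => ?_
      by_contra hne
      apply hy
      obtain ⟨h1, h2, h3⟩ := q1 _ y x hne
      rw [mem_row] at h1 h2 hx
      rw [mem_row, hG3, Finset.mem_sdiff]
      rw [hG2, Finset.mem_sdiff] at h1
      have hx' := hx
      rw [hG1, Finset.mem_sdiff] at hx'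
      refine ⟨mem_Ed.mpr ⟨x, hx'.1, h3⟩, ?_⟩
      intro hcon
      obtain ⟨t, ht1, ht2⟩ := mem_Ed.mp hcon
      exact h1.2 (mem_Ed.mpr ⟨t, mem_Js.mp ht1 _ (p1 z x hx), ht2⟩)
    rw [e2]
    have e3 : ((row G3 z).card : ℝ) = ∑ _y ∈ row G3 z, (1:ℝ) := by simp
    rw [e3]
    refine Finset.sum_le_sum fun y _ => ?_
    by_cases hall0 : ∀ x ∈ row G1 z, q (pi z x) y x = 0
    · rw [Finset.sum_eq_zero hall0]; norm_num
    push_neg at hall0
    obtain ⟨x1, hx1, hne1⟩ := hall0
    have key : ∀ x ∈ row G1 z, q (pi z x) y x ≠ 0 → pi z x = pi z x1 := by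
      intro x2 hx2 hne2
      rw [mem_row] at hx1 hx2
      set a1 := pi z x1 with ha1
      set a2 := pi z x2 with ha2
      obtain ⟨h11, h12, h13⟩ := q1 _ y x1 hne1
      obtain ⟨h21, h22, h23⟩ := q1 _ y x2 hne2
      rw [mem_row, hG2, Finset.mem_sdiff] at h11 h21
      have hz1 := (Finset.mem_sdiff.mp (hG1 ▸ hx1)).1
      have hz2 := (Finset.mem_sdiff.mp (hG1 ▸ hx2)).1
      have c12 : (a1, x2) ∈ G := by
        rw [memG]
        exact ⟨mem_Js.mp hz2 a1 (p1 z x1 hx1), fun hb => h11.2 (mem_Ed.mpr ⟨x2, hb, h23⟩)⟩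
      have c21 : (a2, x1) ∈ G := by
        rw [memG]
        exact ⟨mem_Js.mp hz1 a2 (p1 z x2 hx2), fun hb => h21.2 (mem_Ed.mpr ⟨x1, hb, h13⟩)⟩
      have i1 : L a1 x1 ≤ L a1 x2 :=
        q3 a1 y x1 x2 (lt_of_le_of_ne (q0 _ _ _) (Ne.symm hne1)) (mem_row.mpr c12) h23
      have i2 : L a1 x2 ≤ L a2 x2 := p3 z x2 hx2 a1 (p1 z x1 hx1) c12
      have i3 : L a2 x2 ≤ L a2 x1 :=
        q3 a2 y x2 x1 (lt_of_le_of_ne (q0 _ _ _) (Ne.symm hne2)) (mem_row.mpr c21) h13
      have i4 : L a2 x1 ≤ L a1 x1 := p3 z x1 hx1 a2 (p1 z x2 hx2) c21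
      have j1 : e a1 ≤ e a2 := p4 z x1 hx1 a2 (p1 z x2 hx2) c21 (by
        show L a2 x1 = L a1 x1
        linarith)
      have j2 : e a2 ≤ e a1 := p4 z x2 hx2 a1 (p1 z x1 hx1) c12 (by
        show L a1 x2 = L a2 x2
        linarith)
      exact e.injective (le_antisymm j2 j1)
    calc ∑ x ∈ row G1 z, q (pi z x) y x ≤ ∑ x ∈ row G1 z, q (pi z x1) y x := by
          refine Finset.sum_le_sum fun x hx => ?_
          by_cases h : q (pi z x) y x = 0
          · rw [h]; exact q0 _ _ _
          · rw [key x hx h]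
      _ ≤ ∑ x, q (pi z x1) y x := Finset.sum_le_univ_sum_of_nonneg (fun x => q0 _ _ _)
      _ = 1 := q2 _ y (q1 _ y x1 hne1).1
  -- column claim
  have hcol : ∀ x, ∑ a ∈ col G x, (L a x - 1) ≤ ∑ z ∈ col G1 x, (L (pi z x) x - 1) := by
    intro x
    -- Hall injection
    have hH := (Finset.all_card_le_biUnion_card_iff_exists_injective
      (fun a : {a // a ∈ col G x} => univ.filter fun z => R a.1 z ∧ (z, x) ∈ Js R U)).mp (by
        intro S
        have h := hC x (S.map (Function.Embedding.subtype _)) (by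
          intro a ha
          simp only [Finset.mem_map, Function.Embedding.coe_subtype, Subtype.exists,
            exists_and_right, exists_eq_right] at ha
          obtain ⟨h1, _⟩ := ha
          exact (memG a x).mp (mem_col.mp h1))
        rw [Finset.card_map] at h
        refine h.trans (Finset.card_le_card ?_)
        intro z hz
        simp only [Finset.mem_filter, Finset.mem_univ, true_and, Finset.mem_map,
          Function.Embedding.coe_subtype, Subtype.exists, exists_and_right, exists_eq_right] at hz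
        obtain ⟨⟨a, ⟨h1, h2⟩, h3⟩, h4⟩ := hz
        rw [Finset.mem_biUnion]
        exact ⟨⟨a, h1⟩, h2, by simp only [Finset.mem_filter, Finset.mem_univ, true_and]
                               exact ⟨h3, h4⟩⟩)
    obtain ⟨f, finj, hf⟩ := hH
    have hf' : ∀ a : {a // a ∈ col G x}, R a.1 (f a) ∧ (f a, x) ∈ Js R U := by
      intro a
      have := hf a
      simpa only [Finset.mem_filter, Finset.mem_univ, true_and] using this
    have hfG1 : ∀ a : {a // a ∈ col G x}, f a ∈ col G1 x := by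
      intro a
      rw [mem_col, hG1, Finset.mem_sdiff]
      refine ⟨(hf' a).2, fun hcon => ?_⟩
      exact ((memG _ _).mp (mem_col.mp a.2)).2 (mem_Js.mp hcon a.1 (hf' a).1)
    rw [← Finset.sum_coe_sort (col G x)]
    calc ∑ a : {a // a ∈ col G x}, (L a.1 x - 1)
        ≤ ∑ a : {a // a ∈ col G x}, (L (pi (f a) x) x - 1) := by
          refine Finset.sum_le_sum fun a _ => ?_
          have := p3 (f a) x (mem_col.mp (hfG1 a)) a.1 (hf' a).1 (mem_col.mp a.2)
          linarith
      _ = ∑ z ∈ univ.image f, (L (pi z x) x - 1) := by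
          rw [Finset.sum_image (fun a _ b _ h => finj h)]
      _ ≤ ∑ z ∈ col G1 x, (L (pi z x) x - 1) := by
          refine Finset.sum_le_sum_of_subset_of_nonneg ?_ ?_
          · intro z hz
            obtain ⟨a, _, rfl⟩ := Finset.mem_image.mp hz
            exact hfG1 a
          · intro z hz _
            have := hL1 _ x (p2 z x (mem_col.mp hz))
            linarith
  -- summation
  have s1 : ∑ a, ∑ x ∈ row G a, (L a x - 1) = (G2.card : ℝ) - G.card := by
    have : ∀ a, ∑ x ∈ row G a, (L a x - 1) = ((row G2 a).card : ℝ) - (row G a).card := by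
      intro a
      rw [Finset.sum_sub_distrib, hLsum]; simp
    rw [Finset.sum_congr rfl fun a _ => this a, Finset.sum_sub_distrib]
    rw [card_eq_sum_row G2, card_eq_sum_row G]
    push_cast
    ring
  have s2 : ∑ z, ∑ x ∈ row G1 z, (L (pi z x) x - 1) ≤ (G3.card : ℝ) - G1.card := by
    have : ∀ z, ∑ x ∈ row G1 z, (L (pi z x) x - 1) ≤ ((row G3 z).card : ℝ) - (row G1 z).card := by
      intro z
      rw [Finset.sum_sub_distrib]
      have := hrow z
      simp only [Finset.sum_const, nsmul_eq_mul, mul_one]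
      linarith
    refine (Finset.sum_le_sum fun z _ => this z).trans ?_
    rw [Finset.sum_sub_distrib, card_eq_sum_row G3, card_eq_sum_row G1]
    push_cast
    exact le_refl _
  have swap1 : ∀ (T : Finset (V × V)) (F : V → V → ℝ),
      ∑ a, ∑ x ∈ row T a, F a x = ∑ x, ∑ a ∈ col T x, F a x := by
    intro T F
    simp only [row, col, Finset.sum_filter]
    rw [Finset.sum_comm]
  have s3 : ∑ a, ∑ x ∈ row G a, (L a x - 1) ≤ ∑ z, ∑ x ∈ row G1 z, (L (pi z x) x - 1) := by
    rw [swap1 G (fun a x => L a x - 1), swap1 G1 (fun z x => L (pi z x) x - 1)]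
    exact Finset.sum_le_sum fun x _ => hcol x
  have s4 : (G2.card : ℝ) - G.card ≤ (G3.card : ℝ) - G1.card := by
    rw [← s1]; exact s3.trans s2
  have k0 : G.card + B.card = U.card := Finset.card_sdiff_add_card_eq_card hBU
  have k2 : G2.card + (Ed R B).card = (Ed R U).card :=
    Finset.card_sdiff_add_card_eq_card (Ed_mono hBU)
  have k1 : G1.card + (Js R B).card = (Js R U).card :=
    Finset.card_sdiff_add_card_eq_card (Js_mono hBU)
  have k3 : G3.card + (Ed R (Js R B)).card = (Ed R (Js R U)).card :=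
    Finset.card_sdiff_add_card_eq_card (Ed_mono (Js_mono hBU))
  have s5 : G2.card + G1.card ≤ G3.card + G.card := by
    have : (G2.card : ℝ) + G1.card ≤ G3.card + G.card := by linarith
    exact_mod_cast this
  omega

end Vale.Agent.P038.H889
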